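import Vale.Agent.P014U.X4F.Rec.St
import Vale.Agent.P014U.Gn

/-!
# P014Y, block REC: reciprocity at level `pp ^ N` over a quadratic field (words and row; helper6)
-/

set_option linter.all false

noncomputable section

namespace Vale.Agent.P014Y.F.Rc

open NumberField
open Vale.Agent.P022 Vale.Agent.P022K.G2 Vale.Agent.P014U
open Vale.Agent.P022D.W (dec)
open Vale.Agent.P022.H443 (inP)
open Vale.Agent.P022E.GW (Ov Fb)
open scoped Pointwise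

export Vale.Agent.P004F.Rc (Co Tv Ur Tr)
export Vale.Agent.P014U.X4F.Rc (Cy)

variable [Pp]

/-- an inert prime congruent to `-1`, with a Frobenius element and a generator of tame inertia -/
structure Kp (N : ℕ) (Γ : Subgroup GQ) (l : ℕ) (P : Ideal (𝓞 Qb)) (φ τ : GQ) : Prop where
  ov : Ov l P
  ne : l ≠ pp
  dv : pp ^ N ∣ l + 1
  fb : Fb l P φ
  gn : Gn l P τ
  ur : inP P ≤ Γ
  out : φ ∉ Γ

/-- **reciprocity**: the weights `w` are prime to `pp` and depend only on the level, the prime and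
the generator of tame inertia -/
def REC : Prop := ∀ N : ℕ, ∃ w : ℕ → GQ → ℕ,
  (∀ l P τ, Ov l P → l ≠ pp → Gn l P τ → ¬ pp ∣ w l τ) ∧
  ∀ (Γ : Subgroup GQ) (A M M' : Type) [AddCommGroup A] [AddCommGroup M] [AddCommGroup M']
    (B : M →+ M' →+ A) (ρ : GQ → M →+ M) (σ : GQ → M' →+ M') (a : GQ → M) (b : GQ → M')
    (L : Finset ℕ) (P : ℕ → Ideal (𝓞 Qb)) (φ τ : ℕ → GQ),
    IsOpen (Γ : Set GQ) → Γ.index = 2 → (∀ v, Γ ⊓ St (ip v) = ⊥) → (∀ x : A, pp ^ N • x = 0) →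
    Co Γ ρ a → Co Γ σ b →
    (∀ g ∈ Γ, ∀ k, Cy N g k → ∀ x y, B (ρ g x) (σ g y) = k • B x y) →
    (∀ l ∈ L, Kp N Γ l (P l) (φ l) (τ l) ∧ Tr ρ (P l) (φ l) ∧ Tr σ (P l) (φ l)) →
    (∀ p Q, Ov p Q → p ∉ L → ∃ g ∈ Γ, Tv (Γ ⊓ dec (g • Q)) ρ a ∨ Tv (Γ ⊓ dec (g • Q)) σ b ∨
      (p ≠ pp ∧ Ur (Γ ⊓ inP (g • Q)) ρ a ∧ Ur (Γ ⊓ inP (g • Q)) σ b)) →
    ∑ l ∈ L, w l (τ l) • (B (a (φ l ^ 2)) (b (τ l)) - B (a (τ l)) (b (φ l ^ 2))) = 0

end Vale.Agent.P014Y.F.Rc
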