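import Vale.Agent.P014Y.F.Rec.Nf
import Vale.Agent.P014U.X4F.Rec.All

/-!
# P014Y, block REC closed (helper6)
-/

set_option linter.all false

noncomputable section

namespace Vale.Agent.P014Y.F.Rc

open NumberField Topology Filter
open Vale.Agent.P022 Vale.Agent.P022K Vale.Agent.P014U
open Vale.Agent.P027M.S (Inert)
open Vale.Agent.P022D.W (dec inP_le_dec conj_inP phi_mem dec_gen)
open Vale.Agent.P022.H443 (inP)
open Vale.Agent.P022E.GW (Ov Fb)
open Vale.Agent.P014U.X4S.Ga (K O mem_O d2 d3 Z2 B2)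
open Vale.Agent.P014U.X4S.Aq
open Vale.Agent.P014U.X4F.Rc
open scoped Pointwise

variable [Pp] {n : ℕ}

/-- reciprocity over the quadratic field -/
theorem rk {Γ : Subgroup GQ} (o : IsOpen (Γ : Set GQ)) (i : Γ.index = 2) {z : GQ → GQ → K}
    (hz : Z2 cy Γ z) (L : Finset ℕ) (P : ℕ → Ideal (𝓞 Qb)) (φ : ℕ → GQ) (β : ℕ → Qb)
    (κ u : ℕ → GQ → K) (hL : ∀ l ∈ L, Ov l (P l) ∧ l ≠ pp ∧ Fb l (P l) (φ l) ∧ inP (P l) ≤ Γ ∧
      φ l ∉ Γ ∧ β l ^ pp ^ n = l ∧ Km n (β l) (κ l) ∧ Ad (Γ ⊓ dec (P l)) (u l) ∧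
      (∀ g, (pp : K) ^ n * u l g ∈ O) ∧ (∀ s ∈ inP (P l), u l s ∈ O) ∧
      B2 cy (Γ ⊓ dec (P l)) fun g j => z g j - u l g * (cy g * κ l j))
    (h1 : ∀ p Q, Ov p Q → p ∉ L → B2 cy (Γ ⊓ dec Q) z)
    (h0 : ∀ v, B2 cy (Γ ⊓ G2.St (G2.ip v)) z) : ∑ l ∈ L, u l (φ l ^ 2) ∈ O := by
  classical
  obtain ⟨c, hc⟩ : ∃ c, c ∉ Γ := by
    by_contra! e
    rw [(Subgroup.eq_top_iff' Γ).2 e, Subgroup.index_top] at i
    exact absurd i (by decide)
  obtain ⟨Z, hZ, eZ⟩ := ex_hz o i hz hc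
  have b : ∀ {D}, B2 cy (Γ ⊓ D) z → B2 cy (Γ ⊓ D) fun g j => Z (1, g, g * j) := fun h =>
    b2_congr h fun g hg j hj => by rw [eZ g hg.1 j hj.1, sub_self]; exact zero_mem _
  have : ∀ l, ∃ V, l ∈ L → Ad (dec (P l)) V ∧ (∀ g ∈ dec (P l), (pp : K) ^ n * V g ∈ O) ∧
      (∀ s ∈ inP (P l), V s ∈ O) ∧ V (φ l) - u l (φ l ^ 2) ∈ O ∧
      B2 cy (dec (P l)) fun g j => co c Z g j - V g * (cy g * κ l j) := fun l => by
    by_cases m : l ∈ L
    · obtain ⟨a1, -, a3, a4, a5, -, a7, a8, a9, a10, a11⟩ := hL l m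
      exact (cor_in o i hZ hc (phi_mem a1.1 a1.2.1 a3) a5 a4 a7 a8 (fun g _ => a9 g) a10
        (b2_congr a11 fun g hg j hj => by
          rw [eZ g hg.1 j hj.1, sub_self]; exact zero_mem _)).imp fun _ h _ => h
    · exact ⟨0, fun e => absurd e m⟩
  choose V hV using this
  have mφ : ∀ l ∈ L, φ l ∈ dec (P l) := fun l m =>
    phi_mem (hL l m).1.1 (hL l m).1.2.1 (hL l m).2.2.1
  have key := recq n (ee_prim n) (co_z2 i hZ hc) L P φ (fun l g => tz n (κ l g))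
    (fun l g => tz n ((pp : K) ^ n * V l g)) (fun l m => ?_) (fun p hp m => ?_) ⟨.mk P004S.Aq.em, cor_loc o i hZ hc
      fun g => b (h0 _)⟩
  · have e : ∀ s ⊆ L, (pp : K) ^ n * ∑ l ∈ s, V l (φ l) ∈ O ∧
        tz n ((pp : K) ^ n * ∑ l ∈ s, V l (φ l)) = ∑ l ∈ s, tz n ((pp : K) ^ n * V l (φ l)) := fun s => by
      induction s using Finset.induction_on with
      | empty => exact fun _ => ⟨by simp, by simpa using (tz_zero (zero_mem _)).2 (by simp)⟩
      | insert a s ha ih =>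
        intro h
        obtain ⟨h1, h2⟩ := ih ((Finset.subset_insert _ _).trans h)
        have m := h (Finset.mem_insert_self _ _)
        have h3 := (hV a m).2.1 _ (mφ a m)
        rw [Finset.sum_insert ha, Finset.sum_insert ha, mul_add, tz_add h3 h1, h2]
        exact ⟨add_mem h3 h1, rfl⟩
    exact O_of (sub_mem ((tz_lev0 (e L subset_rfl).1).1 ((e L subset_rfl).2.trans key))
      (sum_mem fun l m => (hV l m).2.2.2.1)) (by rw [Finset.sum_sub_distrib]; ring)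
  · obtain ⟨a1, a2, a3, -, -, a6, a7, -⟩ := hL l m
    obtain ⟨v1, v2, v3, -, v5⟩ := hV l m
    obtain ⟨W, hW, e⟩ := v1.lv
    refine ⟨a1, a2, a3, ⟨β l, a6, fun g => ?_⟩, fun g hg j hj => ?_, ⟨W, hW.opn, fun w a d =>
      (tz_lev0 (v2 w d)).2 (e w d a)⟩, fun s hs => (tz_lev0 (v2 s (inP_le_dec hs))).2 (v3 s hs),
      b2_congr v5 fun g hg j _ => ?_⟩
    · rw [a7.act g, ← ee_pow (lev O_one), mul_one, mul_comm _ (hn n), (ee_eq (lev (a7.int g))
        (lev (O_nat (tz n (κ l g)).val))).2 (O_of (tz_val (n := n) (a7.int g)) (by ring))]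
    · have := v1.add g hg j hj
      rw [← tz_add (v2 g hg) (v2 j hj), show (pp : K) ^ n * V l (g * j) = (pp : K) ^ n * V l g + (pp : K) ^ n * V l j +
        (pp : K) ^ n * (V l (g * j) - V l g - V l j) by ring,
        tz_add (add_mem (v2 g hg) (v2 j hj)) (O_mul (O_pow n) this),
        (tz_lev0 (O_mul (O_pow n) this)).2 this, add_zero]
    · exact O_of (add_mem (O_mul (O_cy g) (O_lv (v2 g hg) (tz_val (n := n) (a7.int j))))
        (O_mul (tz_lev (v2 g hg)) (O_mul (O_cy g) (O_nat (tz n (κ l j)).val)))) (by rw [hn]; ring)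
  · obtain ⟨Q, hQ⟩ := GW.Pl.ex_ov hp
    refine ⟨Q, hQ, G2.st_fp Q ▸ cor_loc o i hZ hc fun g => b ?_⟩
    rw [G2.smul_fp, G2.st_fp]
    exact h1 p _ (GW.ov_smul hQ g) m

/-- **REC** -/
theorem rec' : REC := by
  classical
  rintro (_ | N)
  · exact ⟨fun _ _ => 1, fun _ _ _ _ _ _ d => one_lt.ne' (Nat.dvd_one.1 d),
      fun _ _ _ _ _ _ _ _ _ _ _ _ _ _ _ _ _ _ _ hA _ _ _ _ _ => by simpa using hA _⟩
  choose β hβ using fun l : ℕ =>
    IsAlgClosed.exists_pow_nat_eq (l : Qb) (n := pp ^ (N + 1)) (pow_pos pp_pos _)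
  have : ∀ l : ℕ, ∃ κ, l ≠ 0 → Km (N + 1) (β l) κ := fun l => by
    by_cases h : l = 0
    · exact ⟨0, fun e => absurd h e⟩
    · exact (ex_km (fun e => h (by
        have := hβ l
        rw [e, zero_pow (pow_ne_zero _ pp_ne)] at this
        exact_mod_cast this.symm)) fun g => by rw [hβ, map_natCast]).imp fun _ k _ => k
  choose κ hκ using this
  have : ∀ (l : ℕ) (τ : GQ), ∃ w : ℕ, ∀ P, Ov l P → l ≠ pp → Gn l P τ →
      ¬ pp ∣ w ∧ hn (N + 1) * (w * κ l τ - 1) ∈ O := fun l τ => by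
    by_cases h : ∃ P, Ov l P ∧ l ≠ pp ∧ Gn l P τ
    · obtain ⟨P, ov, ne, gn⟩ := h
      have k := hκ l ov.1.ne_zero
      obtain ⟨y, hy, e⟩ := unit (k.int τ) (km_tau ov ne (hβ l) k gn)
      obtain ⟨w, hw⟩ := apx (N + 1) hy
      have m : hn (N + 1) * (w * κ l τ - 1) ∈ O :=
        O_of (neg_mem (O_mul hw (k.int τ))) (by rw [← e]; ring)
      refine ⟨w, fun _ _ _ _ => ⟨?_, m⟩⟩
      rintro ⟨c, rfl⟩
      exact half_not (O_of (sub_mem (O_mul (O_nat c) (k.int τ)) (O_mul (O_pow N) m)) (by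
        have := pk_ne
        rw [hn]; push_cast; field_simp; ring))
    · exact ⟨0, fun P a b c => absurd ⟨P, a, b, c⟩ h⟩
  choose w hw using this
  refine ⟨w, fun l P τ ov ne gn => (hw l τ P ov ne gn).1, ?_⟩
  intro Γ A M M' _ _ _ B ρ σ a b L P φ τ o i cx hA ha hb hB hL out
  by_contra ne
  obtain ⟨F, hF⟩ := ex_F (hA _) ne
  obtain ⟨f, fe⟩ : ∃ f : A → K, ∀ x, mq (f x) = F x := ⟨fun x => (F x).out, fun x => Quot.out_eq _⟩
  have nm : ∀ (k : ℕ) (x : K), mq (k * x) = k • mq x := fun k x => by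
    rw [← map_nsmul, nsmul_eq_mul]
  have lv : ∀ x, (pp : K) ^ (N + 1) * f x ∈ O := fun x => mq_zero.1 (by
    have := nm (pp ^ (N + 1)) (f x)
    rw [fe, ← map_nsmul, hA, map_zero] at this
    exact_mod_cast this)
  have cf : ∀ g ∈ Γ, ∀ x y, mq (cy g * f (B x y)) = F (B (ρ g x) (σ g y)) := fun g hg x y => by
    obtain ⟨k, hk⟩ := apx (N + 1) (O_cy g)
    rw [hB g hg k (cy_iff.2 hk), map_nsmul, ← fe, ← nm, mq_eq]
    exact O_of (O_lv (lv (B x y)) hk) (by ring)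
  have c1 : ∀ {D}, D ≤ Γ → ∀ G : (M →+ M) × M → (M' →+ M') × M' → K,
      ContinuousOn (fun g => G (ρ g, a g) (σ g, b g)) D := fun le G =>
    ContinuousOn.mono ((continuousOn_iff_continuous_restrict (s := (Γ : Set GQ))).2
      ((ha.loc.prodMk hb.loc).comp fun x => G x.1 x.2).continuous) le
  obtain ⟨z, hz⟩ : ∃ z : GQ → GQ → K, z = fun g h => f (B (a g) (σ g (b h))) := ⟨_, rfl⟩
  have z2 : Z2 cy Γ z := by
    refine ⟨?_, fun g hg h hh j hj => mq_zero.1 ?_⟩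
    · have t : ∀ p : GQ × GQ → GQ, Continuous p → (∀ x ∈ (Γ : Set GQ) ×ˢ (Γ : Set GQ), p x ∈ Γ) →
          IsLocallyConstant fun x : ((Γ : Set GQ) ×ˢ (Γ : Set GQ) : Set (GQ × GQ)) =>
            (a (p x), σ (p x), b (p x)) := fun p c m =>
        ((ha.loc.prodMk hb.loc).comp_continuous
          (f := fun x : ((Γ : Set GQ) ×ˢ (Γ : Set GQ) : Set (GQ × GQ)) => (⟨p x, m x x.2⟩ : Γ))
          (by fun_prop)).comp fun x => (x.1.2, x.2)
      exact hz ▸ continuousOn_iff_continuous_restrict.2 (((t _ continuous_fst fun _ m => m.1).prodMk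
        (t _ continuous_snd fun _ m => m.2)).comp fun x => f (B x.1.1 (x.1.2.1 x.2.2.2))).continuous
    · simp only [hz, d3, map_sub, map_add, fe, cf g hg, ha.co g hg h hh, hb.co h hh j hj,
        hb.mul g hg h hh, AddMonoidHom.add_apply]
      abel
  refine hF ?_
  have key := rk (n := N + 1) o i z2 L P φ β κ
    (fun l g => w l (τ l) * z g (τ l) - w l (τ l) * z (τ l) g) (fun l m => ?_)
    (fun p Q ov m => ?_) fun v => ?_
  · rw [← mq_zero, map_sum] at key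
    rw [map_sum, ← key]
    refine Finset.sum_congr rfl fun l m => ?_
    obtain ⟨k, -, t⟩ := hL l m
    simp only [hz, map_sub, nm, fe, t.1, t.2 _ k.gn.1, map_nsmul, smul_sub]
  · obtain ⟨k, t, t'⟩ := hL l m
    have tρ := fun g hg => co_triv ha k o i t (g := g) hg
    have tσ := fun g hg => co_triv hb k o i t' (g := g) hg
    exact ⟨k.ov, k.ne, k.fb, k.ur, k.out, hβ l, hκ l k.ov.1.ne_zero, nf o i k.ov k.ne k.ur
      (hκ l k.ov.1.ne_zero) (fun g hg => k.cyc o i hg) (z2_mono z2 inf_le_left)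
      (fun h hh => ⟨hz ▸ c1 inf_le_left fun x y => f (B x.2 (y.1 (b h))), fun g hg j hj =>
        mq_zero.1 (by
          simp only [hz, map_sub, map_add, fe, ha.co g hg.1 j hj.1, tρ g hg, tσ g hg, tσ j hj,
            tσ _ (mul_mem hg hj), AddMonoidHom.add_apply]
          abel)⟩)
      (fun g hg => ⟨hz ▸ c1 inf_le_left fun x y => f (B (a g) (σ g y.2)), fun h hh j hj =>
        mq_zero.1 (by
          simp only [hz, map_sub, map_add, fe, hb.co h hh.1 j hj.1, tσ h hh]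
          abel)⟩) (fun g h => hz ▸ lv _) k.gn.1 (hw l _ _ k.ov k.ne k.gn).2⟩
  · obtain ⟨s, hs, e | e | ⟨p2, e, e'⟩⟩ := out p Q ov m
    · obtain ⟨x, hx⟩ := e.conj ha hs
      refine ⟨fun h => f (B x (b h)), c1 inf_le_left fun _ y => f (B x y.2), fun g hg j hj =>
        mq_zero.1 ?_⟩
      simp only [hz, d2, map_sub, map_add, fe, cf g hg.1, hx g hg, hb.co g hg.1 j hj.1,
        AddMonoidHom.sub_apply]
      abel
    · obtain ⟨x, hx⟩ := e.conj hb hs
      refine ⟨fun g => -f (B (a g) (σ g x)), c1 inf_le_left fun y y' => -f (B y.2 (y'.1 x)),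
        fun g hg j hj => mq_zero.1 ?_⟩
      simp only [hz, d2, mul_neg, map_neg, map_sub, map_add, fe, cf g hg.1, hx j hj,
        ha.co g hg.1 j hj.1, hb.mul g hg.1 j hj.1, AddMonoidHom.add_apply]
      abel
    · have u := e.conj ha hs
      have u' := e'.conj hb hs
      refine unr2 o i ov p2 (z2_mono z2 inf_le_left) fun g hg j hj t ht => ?_
      simp only [hz, ha.co g hg.1 t ht.1, hb.co j hj.1 t ht.1, hb.mul g hg.1 t ht.1, (u t ht).2,
        (u' t ht).2, (u' t ht).1, map_zero, add_zero, sub_self, and_self]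
      exact zero_mem _
  · rw [cx v]
    exact ⟨fun _ => z 1 1, continuousOn_const, fun g hg j hj => by
      simp [Subgroup.mem_bot.1 hg, Subgroup.mem_bot.1 hj, d2]⟩

end Vale.Agent.P014Y.F.Rc
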