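import Vale.Agent.P014U.X4F.Rec.Cor
import Vale.Agent.P014Y.F.Rec.St

/-!
# P014Y, block REC: corestriction from a subgroup of index two (helper6)
-/

set_option linter.all false

noncomputable section

namespace Vale.Agent.P014Y.F.Rc

open NumberField Topology Filter
open Vale.Agent.P022 Vale.Agent.P022K Vale.Agent.P014U
open Vale.Agent.P027M.S (Inert)
open Vale.Agent.P022D.W (dec inP_le_dec conj_inP phi_mem dec_gen)
open Vale.Agent.P022.H443 (inP)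
open Vale.Agent.P022E.GW (Ov Fb)
open Vale.Agent.P014U.X4S.Ga (K O mem_O d2 d3 Z2 B2)
open Vale.Agent.P014U.X4S.Aq
open Vale.Agent.P014U.X4F.Rc

variable [Pp]

variable {Γ D H : Subgroup GQ} {z w : GQ → GQ → K} {n l : ℕ} {P : Ideal (𝓞 Qb)} {t x : GQ}

/-- unramified classes -/
theorem unr2 (o : IsOpen (Γ : Set GQ)) (i : Γ.index = 2) (ov : Ov l P) (p2 : l ≠ pp)
    (hz : Z2 cy (Γ ⊓ dec P) z) (hi : Iv (Γ ⊓ dec P) (Γ ⊓ inP P) z) : B2 cy (Γ ⊓ dec P) z := by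
  by_cases ur : inP P ≤ Γ
  · exact unr1 o ov p2 ur hz (by rwa [inf_eq_right.2 ur] at hi)
  obtain ⟨t, t1, t2⟩ := SetLike.not_le_iff_exists.1 ur
  have m : ∀ g ∈ dec P, pr Γ t g ∈ Γ ⊓ dec P := fun g hg =>
    ⟨pr_mem i t2 g, pr_in (inP_le_dec t1) hg⟩
  have e : ∀ g, g⁻¹ * pr Γ t g ∈ inP P := fun g => by
    unfold pr
    split_ifs
    · simp
    · simpa using t1
  have c : ∀ g, cy (pr Γ t g) = cy g := fun g => by
    rw [← mul_inv_cancel_left g (pr Γ t g), map_mul, cy_in ov p2 (e g), mul_one]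
  have e1 : ∀ g ∈ dec P, ∀ j ∈ dec P, ∃ s ∈ Γ ⊓ inP P,
      pr Γ t (g * j) = pr Γ t g * pr Γ t j * s := fun g hg j hj =>
    ⟨_, ⟨Γ.mul_mem (Γ.inv_mem (mul_mem (m g hg).1 (m j hj).1)) (pr_mem i t2 _), by
      have := mul_mem (mul_mem (inv_mem (e j)) (conj_inP (inv_mem hj) (inv_mem (e g)))) (e (g * j))
      simpa [mul_assoc] using this⟩, (mul_inv_cancel_left _ _).symm⟩
  have e2 : ∀ g ∈ dec P, ∀ j ∈ inP P, ∃ s ∈ Γ ⊓ inP P, pr Γ t (g * j) = pr Γ t g * s :=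
    fun g hg j hj => ⟨_, ⟨Γ.mul_mem (Γ.inv_mem (m g hg).1) (pr_mem i t2 _), by
      have := mul_mem (mul_mem (inv_mem (e g)) hj) (e (g * j))
      simpa [mul_assoc] using this⟩, (mul_inv_cancel_left _ _).symm⟩
  have pc := pr_cont o t
  refine b2_congr (b2_mono (unr1 (H := ⊤) (z := fun g j => z (pr Γ t g) (pr Γ t j)) isOpen_univ ov
    p2 le_top ⟨hz.cont.comp (f := fun p : GQ × GQ => (pr Γ t p.1, pr Γ t p.2)) (by fun_prop)
      fun p h => ⟨m _ h.1.2, m _ h.2.2⟩, fun g hg j hj k hk => ?_⟩ fun g hg j hj s hs => ?_)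
    (inf_le_inf_right _ le_top)) fun g hg j hj => by simp [pr_of hg.1, pr_of hj.1]
  · obtain ⟨a, a1, a2⟩ := e1 g hg.2 j hj.2
    obtain ⟨b, b1, b2⟩ := e1 j hj.2 k hk.2
    have mg := m g hg.2
    have mj := m j hj.2
    have mk := m k hk.2
    exact O_of (add_mem (sub_mem (hz.coc _ mg _ mj _ mk) (hi _ (mul_mem mg mj) _ mk a a1).1)
      (hi _ mg _ (mul_mem mj mk) b b1).2) (by simp only [d3, a2, b2, c]; ring)
  · obtain ⟨a, a1, a2⟩ := e2 g hg.2 s hs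
    obtain ⟨b, b1, b2⟩ := e2 j hj.2 s hs
    simp only [a2, b2]
    exact ⟨(hi _ (m g hg.2) _ (m j hj.2) a a1).1, (hi _ (m g hg.2) _ (m j hj.2) b b1).2⟩

variable {X Y : Set GQ} {Z W : GQ × GQ × GQ → K}

theorem eqv {Ω : Type} [MulAction GQ Ω] (i : Γ.index = 2) {S : Set Ω} {F : Ω → K}
    (st : ∀ g ∈ D, ∀ x ∈ S, g • x ∈ S) (h : ∀ γ ∈ Γ ⊓ D, ∀ x ∈ S, F (γ • x) - cy γ * F x ∈ O)
    {d g : GQ} (d1 : d ∈ D) (d2 : d ∉ Γ) (hg : g ∈ D) {x : Ω} (hx : x ∈ S) :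
    F (g • x) + cy d⁻¹ * F (d • g • x) - cy g * (F x + cy d⁻¹ * F (d • x)) ∈ O := by
  have := Subgroup.normal_of_index_eq_two i
  by_cases m : g ∈ Γ
  · have e := h (d * g * d⁻¹) ⟨this.conj_mem g m d, D.mul_mem (mul_mem d1 hg) (inv_mem d1)⟩ _
      (st d d1 x hx)
    rw [mul_smul, inv_smul_smul, mul_smul, map_mul, map_mul] at e
    exact O_of (add_mem (h g ⟨m, hg⟩ x hx) (O_mul (O_cy d⁻¹) e))
      (by linear_combination (cy g * cy d⁻¹ * F (d • x)) * cy_inv d)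
  · have e := h (g * d⁻¹) ⟨mul_out i m (mt inv_mem_iff.1 d2), D.mul_mem hg (inv_mem d1)⟩ _
      (st d d1 x hx)
    have e' := h (d * g) ⟨mul_out i d2 m, mul_mem d1 hg⟩ x hx
    rw [mul_smul, inv_smul_smul, map_mul] at e
    rw [mul_smul, map_mul] at e'
    exact O_of (add_mem e (O_mul (O_cy d⁻¹) e')) (by linear_combination (cy g * F x) * cy_inv d)

/-- the corestriction -/
def co (d : GQ) (Z : GQ × GQ × GQ → K) (g j : GQ) : K :=
  Z (1, g, g * j) + cy d⁻¹ * Z (d • (1, g, g * j))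

theorem co_z2 (i : Γ.index = 2) (h : Hz Γ Set.univ Z) {c : GQ} (hc : c ∉ Γ) :
    Z2 cy ⊤ (co c Z) := by
  have zc : Continuous Z := continuousOn_univ.1 (by simpa using h.cont)
  refine ⟨Continuous.continuousOn (by unfold co; fun_prop), fun g _ j _ k _ => ?_⟩
  have e := eqv (D := ⊤) (S := Set.univ) i (fun _ _ _ _ => trivial)
    (fun γ m x _ => h.eqv γ m.1 x (by simp)) trivial hc (g := g) trivial
    (x := (1, j, j * k)) trivial
  refine O_of (sub_mem (add_mem (h.coc 1 trivial g trivial (g * j) trivial (g * (j * k)) trivial)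
    (O_mul (O_cy c⁻¹) (h.coc c trivial (c * g) trivial (c * (g * j)) trivial (c * (g * (j * k)))
      trivial))) e) ?_
  simp only [d3, co, Prod.smul_mk, smul_eq_mul, mul_one, mul_assoc]
  ring

theorem co_ind (i : Γ.index = 2) (h : Hz Γ Set.univ Z) {c d : GQ} (hc : c ∉ Γ) (hd : d ∉ Γ)
    (g j : GQ) : co c Z g j - co d Z g j ∈ O := by
  have e := h.eqv (c * d⁻¹) (mul_out i hc (mt inv_mem_iff.1 hd)) (d • (1, g, g * j)) (by simp)
  rw [mul_smul, inv_smul_smul, map_mul] at e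
  refine O_of (O_mul (O_cy c⁻¹) e) ?_
  simp only [co]
  linear_combination (cy d⁻¹ * Z (d • (1, g, g * j))) * cy_inv c

theorem co_b2 {Θ Θ' : GQ × GQ → K} {d : GQ} (c : ContinuousOn Θ ((D : Set GQ) ×ˢ (D : Set GQ)))
    (c' : ContinuousOn Θ' (X ×ˢ X)) (hX : ∀ g ∈ D, d * g ∈ X)
    (e : ∀ a ∈ D, ∀ b ∈ D, ∀ c ∈ D, Z (a, b, c) - (Θ (b, c) - Θ (a, c) + Θ (a, b)) ∈ O)
    (e' : ∀ a ∈ X, ∀ b ∈ X, ∀ c ∈ X, Z (a, b, c) - (Θ' (b, c) - Θ' (a, c) + Θ' (a, b)) ∈ O)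
    (k : ∀ g ∈ D, ∀ j ∈ D, Θ (g • (1, j)) + cy d⁻¹ * Θ' (d • g • (1, j)) -
      cy g * (Θ (1, j) + cy d⁻¹ * Θ' (d • (1, j))) ∈ O) : B2 cy D (co d Z) := by
  refine ⟨fun g => Θ (1, g) + cy d⁻¹ * Θ' (d * 1, d * g), (c.comp (f := fun g : GQ => (1, g))
    (by fun_prop) fun g hg => ⟨D.one_mem, hg⟩).add (continuousOn_const.mul (c'.comp
      (f := fun g : GQ => (d * 1, d * g)) (by fun_prop) fun g hg => ⟨hX 1 D.one_mem, hX g hg⟩)),
    fun g hg j hj => ?_⟩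
  have m := mul_mem hg hj
  refine O_of (add_mem (add_mem (e 1 D.one_mem g hg _ m) (O_mul (O_cy d⁻¹)
    (e' _ (hX 1 D.one_mem) _ (hX g hg) _ (hX _ m)))) (k g hg j hj)) ?_
  simp only [d2, co, Prod.smul_mk, smul_eq_mul, mul_one]
  ring

theorem cor1 (i : Γ.index = 2) {d : GQ} (d1 : d ∈ D) (d2 : d ∉ Γ) (h : Hb (Γ ⊓ D) D Z) :
    B2 cy D (co d Z) := by
  obtain ⟨Θ, c, e, f⟩ := h
  exact co_b2 c c (fun g hg => mul_mem d1 hg) f f fun g hg j hj =>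
    eqv i (S := (D : Set GQ) ×ˢ (D : Set GQ)) (fun g hg x hx => ⟨D.mul_mem hg hx.1,
      D.mul_mem hg hx.2⟩) e d1 d2 hg ⟨D.one_mem, hj⟩

/-- the corestriction of a locally trivial class is locally trivial -/
theorem cor_loc (o : IsOpen (Γ : Set GQ)) (i : Γ.index = 2) (h : Hz Γ Set.univ Z) {c : GQ}
    (hc : c ∉ Γ) {y : G2.Plc}
    (b : ∀ g : GQ, B2 cy (Γ ⊓ G2.St (g • y)) fun g j => Z (1, g, g * j)) :
    B2 cy (G2.St y) (co c Z) := by
  have b1 := b 1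
  rw [one_smul] at b1
  have k : ∀ {H X t}, H ≤ Γ → (∀ x ∈ X, pr Γ t x ∈ H) →
      (B2 cy H fun g j => Z (1, g, g * j)) → Hb H X Z := fun le m b =>
    prism (h.mono le le_rfl) (Set.subset_univ _) (Set.subset_univ _) (pr_cont o _) m
      (fun γ m => pr_mul (le m)) b
  by_cases le : G2.St y ≤ Γ
  · have nr := Subgroup.normal_of_index_eq_two i
    have cj : ∀ g ∈ G2.St y, c * g * c⁻¹ ∈ Γ ⊓ G2.St (c • y) := fun g hg =>
      ⟨nr.conj_mem g (le hg) c, MulAction.mem_stabilizer_iff.2 (by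
        rw [mul_smul, inv_smul_smul, mul_smul, MulAction.mem_stabilizer_iff.1 hg])⟩
    obtain ⟨Θ, c1, e1, f1⟩ := k (X := G2.St y) (t := c) inf_le_left
      (fun x hx => by rw [pr_of (le hx)]; exact ⟨le hx, hx⟩) b1
    obtain ⟨Θ', c2, e2, f2⟩ := k (X := {x | c⁻¹ * x ∈ G2.St y}) (t := c) inf_le_left
      (fun x hx => by
        rw [pr_not fun m => hc (inv_mem_iff.1 ((Γ.mul_mem_cancel_right m).1 (le hx)))]
        simpa using cj _ hx) (b c)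
    refine co_b2 c1 c2 (fun g hg => by simpa using hg) f1 f2 fun g hg j hj => ?_
    have e := e2 _ (cj g hg) (c • (1, j)) ⟨by simp, by simpa using hj⟩
    rw [mul_smul, inv_smul_smul, mul_smul, map_mul, map_mul] at e
    exact O_of (add_mem (e1 g ⟨le hg, hg⟩ (1, j) ⟨one_mem _, hj⟩) (O_mul (O_cy c⁻¹) e))
      (by linear_combination (cy g * cy c⁻¹ * Θ' (c • (1, j))) * cy_inv c)
  · obtain ⟨d, d1, d2⟩ := SetLike.not_le_iff_exists.1 le
    exact b2_congr (cor1 i d1 d2 (k (t := d) inf_le_left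
      (fun x hx => ⟨pr_mem i d2 x, pr_in d1 hx⟩) b1)) fun g _ j _ => co_ind i h hc d2 g j

/-- the homogeneous form of a cocycle -/
theorem ex_hz (o : IsOpen (Γ : Set GQ)) (i : Γ.index = 2) (hz : Z2 cy Γ z) {c : GQ} (hc : c ∉ Γ) :
    ∃ Z, Hz Γ Set.univ Z ∧ ∀ g ∈ Γ, ∀ j ∈ Γ, Z (1, g, g * j) = z g j := by
  have pc := pr_cont o c
  have m := pr_mem i hc
  have m' : ∀ a b, (pr Γ c a)⁻¹ * pr Γ c b ∈ Γ := fun a b => mul_mem (inv_mem (m a)) (m b)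
  refine ⟨fun x => cy (pr Γ c x.1) * z ((pr Γ c x.1)⁻¹ * pr Γ c x.2.1)
    ((pr Γ c x.2.1)⁻¹ * pr Γ c x.2.2), ⟨(cy_cont.comp (by fun_prop)).continuousOn.mul
      (hz.cont.comp (f := fun x : GQ × GQ × GQ => ((pr Γ c x.1)⁻¹ * pr Γ c x.2.1,
        (pr Γ c x.2.1)⁻¹ * pr Γ c x.2.2)) (by fun_prop) fun x _ => ⟨m' _ _, m' _ _⟩),
    fun a _ b _ d _ e _ => ?_, fun γ hγ x _ => O_of (zero_mem _) ?_⟩, fun g hg j hj => ?_⟩
  · have e3 : cy (pr Γ c a) * cy ((pr Γ c a)⁻¹ * pr Γ c b) = cy (pr Γ c b) := by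
      rw [← map_mul, mul_inv_cancel_left]
    refine O_of (O_mul (O_cy (pr Γ c a)) (hz.coc _ (m' a b) _ (m' b d) _ (m' d e))) ?_
    simp only [d3, mul_assoc, mul_inv_cancel_left, ← e3]
    ring
  · simp only [Prod.smul_fst, Prod.smul_snd, smul_eq_mul, pr_mul hγ, map_mul, mul_inv_rev,
      mul_assoc, inv_mul_cancel_left, sub_self]
  · simp [pr_of Γ.one_mem, pr_of hg, pr_of (mul_mem hg hj)]

/-- the corestriction at an inert prime -/
theorem cor_in (o : IsOpen (Γ : Set GQ)) (i : Γ.index = 2) (h : Hz Γ Set.univ Z) {c φ : GQ}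
    (hc : c ∉ Γ) (φ1 : φ ∈ dec P) (φ2 : φ ∉ Γ) (ur : inP P ≤ Γ) {u κ : GQ → K} {β : Qb}
    (k : Km n β κ) (hu : Ad (Γ ⊓ dec P) u) (lu : ∀ g ∈ Γ ⊓ dec P, (pp : K) ^ n * u g ∈ O)
    (ui : ∀ s ∈ inP P, u s ∈ O)
    (b : B2 cy (Γ ⊓ dec P) fun g j => Z (1, g, g * j) - u g * (cy g * κ j)) :
    ∃ V, Ad (dec P) V ∧ (∀ g ∈ dec P, (pp : K) ^ n * V g ∈ O) ∧ (∀ s ∈ inP P, V s ∈ O) ∧
      V φ - u (φ ^ 2) ∈ O ∧ B2 cy (dec P) fun g j => co c Z g j - V g * (cy g * κ j) := by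
  have pc := pr_cont o φ
  have m : ∀ g ∈ dec P, pr Γ φ g ∈ Γ ⊓ dec P := fun g hg => ⟨pr_mem i φ2 g, pr_in φ1 hg⟩
  obtain ⟨U, hU⟩ : ∃ U, U = fun g => u (pr Γ φ g) := ⟨_, rfl⟩
  have uc : ContinuousOn U (dec P) := hU ▸ hu.cont.comp pc.continuousOn m
  have ul : ∀ a ∈ dec P, ∀ b ∈ dec P, (pp : K) ^ n * (U a - U b) ∈ O := fun a ha b hb =>
    O_of (sub_mem (lu _ (m a ha)) (lu _ (m b hb))) (by rw [hU]; ring)
  have ue : ∀ γ ∈ Γ ⊓ dec P, ∀ a ∈ dec P, U (γ * a) - u γ - U a ∈ O := fun γ hγ a ha => by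
    simp only [hU, pr_mul hγ.1]; exact hu.add γ hγ _ (m a ha)
  have ke : ∀ γ a b, hn n * (κ (γ * a) - κ (γ * b) - cy γ * (κ a - κ b)) ∈ O := fun γ a b =>
    O_of (sub_mem (k.coc γ a) (k.coc γ b)) (by ring)
  have u1 : U 1 ∈ O := by simpa only [hU, pr_of Γ.one_mem] using hu.one
  have uφ : U φ ∈ O := by simpa only [hU, pr_not φ2, mul_inv_cancel] using hu.one
  have hW : Hz (Γ ⊓ dec P) (dec P) fun x => (U x.2.1 - U x.1) * (κ x.2.2 - κ x.2.1) :=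
    ⟨((uc.comp (by fun_prop) fun x hx => hx.2.1).sub (uc.comp (by fun_prop) fun x hx => hx.1)).mul
      (Continuous.continuousOn (by have := k.cont; fun_prop)),
      fun a _ b _ d _ e _ => O_of (zero_mem _) (by ring), fun γ hγ x hx => O_of (add_mem
        (O_mul (sub_mem (ue γ hγ _ hx.2.1) (ue γ hγ _ hx.1)) (sub_mem (k.int (γ * x.2.2))
          (k.int (γ * x.2.1)))) (O_lv (ul _ hx.2.1 _ hx.1) (ke γ x.2.2 x.2.1))) (by
        simp only [Prod.smul_fst, Prod.smul_snd, smul_eq_mul]; ring)⟩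
  have b1 := cor1 i φ1 φ2 (prism ((h.mono inf_le_left (Set.subset_univ _)).sub hW) subset_rfl
    inf_le_right pc m (fun γ hγ => pr_mul hγ.1) (b2_congr b fun g hg j hj => O_of (sub_mem
      (O_mul u1 (sub_mem (k.int (g * j)) (k.int g))) (O_lv (lu g hg) (k.coc g j))) (by
      simp only [hU, pr_of hg.1]; ring)))
  have φφ : ∀ g ∈ dec P, φ * g ∈ dec P := fun g hg => mul_mem φ1 hg
  refine ⟨fun g => U g - U 1 + (U (φ * g) - U φ), ⟨(uc.sub continuousOn_const).add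
    ((uc.comp (by fun_prop) φφ).sub continuousOn_const), fun g hg j hj => ?_⟩, fun g hg =>
      O_of (add_mem (ul g hg 1 (one_mem _)) (ul _ (φφ g hg) φ φ1)) (by ring), fun s hs => ?_, ?_,
    b2_congr b1 fun g hg j hj => ?_⟩
  · by_cases e : g ∈ Γ
    · have cj : φ * g * φ⁻¹ ∈ Γ ⊓ dec P := ⟨(Subgroup.normal_of_index_eq_two i).conj_mem g e φ,
        (dec P).mul_mem (φφ g hg) (inv_mem φ1)⟩
      have e1 := ue _ cj _ (φφ j hj)
      have e2 := ue _ cj _ φ1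
      have e3 := ue g ⟨e, hg⟩ 1 (one_mem _)
      simp only [mul_assoc, inv_mul_cancel_left, inv_mul_cancel, mul_one] at e1 e2 e3
      exact O_of (add_mem (sub_mem (ue g ⟨e, hg⟩ j hj) e3) (sub_mem e1 e2)) (by ring)
    · have m1 : g * φ⁻¹ ∈ Γ ⊓ dec P :=
        ⟨mul_out i e (mt inv_mem_iff.1 φ2), (dec P).mul_mem hg (inv_mem φ1)⟩
      have m2 : φ * g ∈ Γ ⊓ dec P := ⟨mul_out i φ2 e, φφ g hg⟩
      have e1 := ue _ m1 _ (φφ j hj)
      have e2 := ue _ m1 _ φ1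
      have e3 := ue _ m2 j hj
      have e4 := ue _ m2 1 (one_mem _)
      simp only [mul_assoc, inv_mul_cancel_left, inv_mul_cancel, mul_one] at e1 e2 e3 e4
      exact O_of (add_mem (sub_mem e1 e2) (sub_mem e3 e4)) (by ring)
  · refine add_mem (sub_mem ?_ u1) (sub_mem ?_ uφ)
    · simpa only [hU, pr_of (ur hs)] using ui s hs
    · rw [hU]
      simp only [pr_not fun e => φ2 ((Γ.mul_mem_cancel_right (ur hs)).1 e)]
      exact ui _ (conj_inP φ1 hs)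
  · refine O_of (neg_mem u1) ?_
    rw [sq, show u (φ * φ) = U (φ * φ) by simp only [hU, pr_of (mul_out i φ2 φ2)]]
    ring
  · have l1 := ul g hg 1 (one_mem _)
    have l2 := ul _ (φφ g hg) φ φ1
    refine O_of (add_mem (add_mem (co_ind i h hc φ2 g j) (add_mem (O_lv l1 (k.coc g j))
      (O_lv l2 (k.coc g j)))) (O_mul (O_cy φ⁻¹) (O_lv l2 (ke φ (g * j) g)))) ?_
    simp only [co, Prod.smul_mk, smul_eq_mul, mul_one]
    linear_combination ((U (φ * g) - U φ) * (κ (g * j) - κ g)) * cy_inv φ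

end Vale.Agent.P014Y.F.Rc
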