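import Vale.Agent.P014Y.F.Rec.Cor
import Vale.Agent.P014U.X4F.Rec.Nf

/-!
# P014Y, block REC: the local normal form (helper6)
-/

set_option linter.all false

noncomputable section

namespace Vale.Agent.P014Y.F.Rc

open NumberField Topology Filter
open Vale.Agent.P022 Vale.Agent.P022K Vale.Agent.P014U
open Vale.Agent.P027M.S (Inert)
open Vale.Agent.P022D.W (dec inP_le_dec conj_inP phi_mem dec_gen)
open Vale.Agent.P022.H443 (inP)
open Vale.Agent.P022E.GW (Ov Fb)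
open Vale.Agent.P014U.X4S.Ga (K O mem_O d2 d3 Z2 B2)
open Vale.Agent.P014U.X4S.Aq
open Vale.Agent.P014U.X4F.Rc
open scoped Pointwise

variable [Pp] {Γ D : Subgroup GQ} {N l : ℕ} {P : Ideal (𝓞 Qb)} {φ τ : GQ}

/-- a biadditive function on the group of an unramified tame place is a symbol -/
theorem nf (o : IsOpen (Γ : Set GQ)) (i : Γ.index = 2) (ov : Ov l P) (p2 : l ≠ pp)
    (ur : inP P ≤ Γ) {β : Qb} {κ : GQ → K} (k : Km N β κ)
    (hc : ∀ g ∈ Γ ⊓ dec P, hn N * (cy g - 1) ∈ O) {y : GQ → GQ → K}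
    (hz : Z2 cy (Γ ⊓ dec P) y) (a1 : ∀ h ∈ Γ ⊓ dec P, Ad (Γ ⊓ dec P) fun g => y g h)
    (a2 : ∀ g ∈ Γ ⊓ dec P, Ad (Γ ⊓ dec P) (y g)) (lv : ∀ g h, (pp : K) ^ N * y g h ∈ O)
    (hτ : τ ∈ inP P) {w : ℕ} (hw : hn N * (w * κ τ - 1) ∈ O) :
    Ad (Γ ⊓ dec P) (fun g => w * y g τ - w * y τ g) ∧
    (∀ g, (pp : K) ^ N * (w * y g τ - w * y τ g) ∈ O) ∧ (∀ s ∈ inP P, w * y s τ - w * y τ s ∈ O) ∧
    B2 cy (Γ ⊓ dec P) fun g j => y g j - (w * y g τ - w * y τ g) * (cy g * κ j) := by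
  have le : inP P ≤ Γ ⊓ dec P := le_inf ur inP_le_dec
  have ow := O_nat w
  have ki := k.int
  have ka := k.ad hc
  have kd : ∀ g ∈ Γ ⊓ dec P, ∀ j ∈ Γ ⊓ dec P, hn N * (κ (g * j) - κ g - κ j) ∈ O :=
    fun g hg j hj => O_of (ka.add g hg j hj) (by ring)
  have l1 : ∀ g h, (pp : K) ^ N * y g h ∈ O := lv
  have l2 : ∀ g h, (pp : K) ^ N * (w * y g h) ∈ O := fun g h => O_of (O_mul ow (l1 g h)) (by ring)
  have l3 : (pp : K) ^ N * (2⁻¹ * (w * (w * y τ τ))) ∈ O :=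
    O_of (O_mul O_half (O_mul ow (O_mul ow (lv τ τ)))) (by ring)
  have t : ∀ f : GQ → K, Ad (Γ ⊓ dec P) f → (∀ g, (pp : K) ^ N * f g ∈ O) → ∀ s ∈ inP P,
      f s - κ s * (w * f τ) ∈ O := fun f hf lf s hs =>
    O_of (sub_mem (O_mul ow ((hf.mono le).tame ov p2 (fun g _ => lf g) (ka.mono le) ki hs hτ))
      (O_lv (lf s) hw)) (by ring)
  have t1 := fun h hh => t _ (a1 h hh) fun g => l1 g h
  have t2 := fun g hg => t _ (a2 g hg) (l1 g)
  have mτ := le hτ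
  have ua := ((a1 τ mτ).smul ow).sub ((a2 τ mτ).smul ow)
  have ul : ∀ g, (pp : K) ^ N * (w * y g τ - w * y τ g) ∈ O := fun g =>
    O_of (sub_mem (l2 g τ) (l2 τ g)) (by ring)
  refine ⟨ua, ul, fun s hs => O_of (O_mul ow (sub_mem (t1 τ mτ s hs) (t2 τ mτ s hs))) (by ring),
    ?_⟩
  obtain ⟨θ, hθ⟩ : ∃ θ : GQ → K, θ = fun g =>
    -(w * y τ g) * κ g + 2⁻¹ * (w * (w * y τ τ)) * κ g ^ 2 := ⟨_, rfl⟩
  have θc : ContinuousOn θ (Γ ⊓ dec P : Subgroup GQ) := hθ ▸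
    (((continuousOn_const.mul (a2 τ mτ).cont).neg.mul k.cont.continuousOn).add
      (continuous_const.mul (k.cont.pow 2)).continuousOn)
  have θl : ∀ g, (pp : K) ^ N * θ g ∈ O := fun g =>
    O_of (sub_mem (O_mul l3 (O_pw (ki g) 2)) (O_mul (l2 τ g) (ki g))) (by rw [hθ]; ring)
  have key : ∀ g ∈ Γ ⊓ dec P, ∀ j ∈ Γ ⊓ dec P,
      y g j - (w * y g τ - w * y τ g) * (cy g * κ j) - d2 cy θ g j -
        (y g j - w * y g τ * κ j - κ g * (w * y τ j) + κ g * κ j * (w * (w * y τ τ))) ∈ O :=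
    fun g hg j hj => O_of (sub_mem (sub_mem (O_mul (O_lv l3 (kd g hg j hj))
      (add_mem (ki (g * j)) (add_mem (ki g) (ki j)))) (add_mem (O_mul (O_lv (ul g) (hc g hg))
        (ki j)) (O_lv (θl j) (hc g hg)))) (add_mem (add_mem (O_lv (l2 τ g) (kd g hg j hj))
          (O_lv (l2 τ j) (kd g hg j hj))) (O_mul (O_mul ow ((a2 τ mτ).add g hg j hj))
            (ki (g * j))))) (by simp only [d2, hθ]; ring)
  have l4 : (pp : K) ^ N * (w * (w * y τ τ)) ∈ O := O_of (O_mul ow (l2 τ τ)) (by ring)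
  refine b2_congr (b2_add (unr2 o i ov p2 (z2_sub (z2_dif hz (cup_z2 ua (fun g _ => ul g) k)) θc)
    fun g hg j hj s hs => ⟨?_, ?_⟩) ⟨θ, θc, fun g _ j _ => O_of (zero_mem _) (sub_self _)⟩)
    fun g _ j _ => O_of (zero_mem _) (by ring)
  · have ms := le hs.2
    exact O_of (add_mem (sub_mem (key _ (mul_mem hg ms) j hj) (key g hg j hj)) (add_mem (sub_mem
      (add_mem ((a1 j hj).add g hg s ms) (t1 j hj s hs.2)) (O_mul (O_mul ow (add_mem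
        ((a1 τ mτ).add g hg s ms) (t1 τ mτ s hs.2))) (ki j))) (sub_mem (O_mul (O_lv l4
          (kd g hg s ms)) (ki j)) (O_lv (l2 τ j) (kd g hg s ms))))) (by ring)
  · have ms := le hs.2
    exact O_of (add_mem (sub_mem (key g hg _ (mul_mem hj ms)) (key g hg j hj)) (add_mem (sub_mem
      (add_mem ((a2 g hg).add j hj s ms) (t2 g hg s hs.2)) (O_mul (O_mul ow (add_mem
        ((a2 τ mτ).add j hj s ms) (t2 τ mτ s hs.2))) (ki g))) (sub_mem (O_mul (O_lv l4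
          (kd j hj s ms)) (ki g)) (O_lv (l2 g τ) (kd j hj s ms))))) (by ring)

/-- generators of the group of an inert place -/
theorem Kp.gen (h : Kp N Γ l P φ τ) (o : IsOpen (Γ : Set GQ)) (i : Γ.index = 2)
    {T W : Subgroup GQ} (hW : IsOpen (W : Set GQ)) (e : ∀ w ∈ Γ, w ∈ W → w ∈ T) (h2 : φ ^ 2 ∈ T)
    (hI : inP P ≤ T) : Γ ⊓ dec P ≤ T := fun g hg => by
  obtain ⟨k, s, u, hs, hu, rfl⟩ := dec_gen h.ov.1 h.ov.2.1 h.ov.2.2 h.fb hg.2 (W ⊓ Γ) (hW.inter o)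
  have m : φ ^ k ∈ Γ := (Γ.mul_mem_cancel_left hu.2).1 ((Γ.mul_mem_cancel_right (h.ur hs)).1 hg.1)
  rcases Nat.even_or_odd' k with ⟨a, rfl | rfl⟩
  · exact mul_mem (mul_mem (e u hu.2 hu.1) (by rw [pow_mul]; exact pow_mem h2 a)) (hI hs)
  · rw [pow_succ, pow_mul] at m
    exact absurd ((Γ.mul_mem_cancel_left (pow_mem (Subgroup.sq_mem_of_index_two i φ) a)).1 m) h.out

theorem Kp.two (h : Kp N Γ l P φ τ) (i : Γ.index = 2) : φ ^ 2 ∈ Γ ⊓ dec P :=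
  ⟨Subgroup.sq_mem_of_index_two i φ, pow_mem (phi_mem h.ov.1 h.ov.2.1 h.fb) 2⟩

theorem Kp.cyc (h : Kp N Γ l P φ τ) (o : IsOpen (Γ : Set GQ)) (i : Γ.index = 2) {g : GQ}
    (hg : g ∈ Γ ⊓ dec P) : hn N * (cy g - 1) ∈ O := by
  have p := ee_prim N
  have := NeZero.mk (pow_ne_zero N pp_ne)
  generalize ee N (hn N * 1) = ζ at p
  have e1 := cy_iff.2 (cy_fb h.ov h.ne h.fb N) ζ p.pow_eq_one
  have m : g ζ = ζ := h.gen o i (T := MulAction.stabilizer GQ ζ) (G2.stab_open ζ) (fun _ _ m => m)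
    (show (φ ^ 2) ζ = ζ by
      obtain ⟨a, ha⟩ := Nat.exists_eq_succ_of_ne_zero h.ov.1.ne_zero
      obtain ⟨b, hb⟩ := h.dv
      have z : ζ ^ (l + 1) = 1 := by rw [hb, pow_mul, p.pow_eq_one, one_pow]
      have z0 : ζ ^ l ≠ 0 := pow_ne_zero _ (p.ne_zero (NeZero.ne _))
      rw [sq, AlgEquiv.mul_apply, e1, map_pow, e1]
      refine mul_right_cancel₀ z0 ?_
      rw [← pow_succ, ← pow_succ', z, ← pow_mul, mul_comm, pow_mul, z, one_pow])
    (fun s hs => show s ζ = ζ by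
      simpa using (cy_iff (k := 1)).2 (by simp [cy_in h.ov h.ne hs]) ζ p.pow_eq_one) hg
  simpa using (cy_iff (k := 1)).1 fun η hη => by
    obtain ⟨c, -, rfl⟩ := p.eq_pow_of_pow_eq_one hη
    rw [map_pow, m, pow_one]

theorem gn_mv {β : Qb} (o : Ov l P) (h2 : l ≠ pp) (gn : Gn l P τ) (e : β ^ pp = l) : τ β ≠ β :=
  fun h => by
  have := Fact.mk one_lt
  have r : G2.rt pp (l : Qb) ≠ 0 := fun z => by
    have := G2.rt_pow pp (l : Qb)
    rw [z, zero_pow pp_ne] at this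
    exact Nat.cast_ne_zero.2 o.1.ne_zero this.symm
  have a := (eul (n := 1) (β := β / G2.rt pp (l : Qb)) (b := 1) (m := 0) o h2 (by
    rw [pow_one, div_pow, e, G2.rt_pow, div_self (Nat.cast_ne_zero.2 o.1.ne_zero), Nat.cast_one])
    (fun d => o.1.ne_one (Nat.dvd_one.1 d)) (g := τ) fun x => by simpa using gn.1 x).2 (pow_zero _)
  have b0 : β ≠ 0 := fun z => by
    rw [z, zero_pow pp_ne] at e
    exact Nat.cast_ne_zero.2 o.1.ne_zero e.symm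
  rw [map_div₀, h, div_eq_div_iff ((map_ne_zero τ).2 r) r, mul_right_inj' b0,
    G2.ka_spec (map_natCast τ l), gn.2, ZMod.val_one, pow_one, eq_comm, mul_eq_right₀ r] at a
  exact (G2.zt_prim pp).ne_one one_lt a

/-- the Kummer cocycle is a unit at a generator of tame inertia -/
theorem km_tau (o : Ov l P) (h2 : l ≠ pp) {β : Qb} (hb : β ^ pp ^ (N + 1) = l) {κ : GQ → K}
    (k : Km (N + 1) β κ) (gn : Gn l P τ) : (pp : K)⁻¹ * κ τ ∉ O := fun e =>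
  gn_mv o h2 gn (β := β ^ pp ^ N) (by rw [← pow_mul, ← pow_succ, hb])
    (((k.pow (pp ^ N)).fix τ).2 (O_of e (by
      have := pk_ne
      rw [hn]; push_cast; field_simp; ring)))

variable {M : Type} [AddCommGroup M] {ρ : GQ → M →+ M} {a : GQ → M} {g : GQ}

theorem co_triv (h : Co Γ ρ a) (k : Kp N Γ l P φ τ) (o : IsOpen (Γ : Set GQ)) (i : Γ.index = 2)
    (t : Tr ρ P φ) (hg : g ∈ Γ ⊓ dec P) (x : M) : ρ g x = x := by
  obtain ⟨W, hW, e⟩ := h.lc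
  let T : Subgroup GQ :=
    { carrier := {g | g ∈ Γ ∧ ∀ x, ρ g x = x}
      mul_mem' := fun {a b} ha hb => ⟨mul_mem ha.1 hb.1, fun x => by
        rw [h.mul a ha.1 b hb.1, hb.2, ha.2]⟩
      one_mem' := ⟨Γ.one_mem, h.one⟩
      inv_mem' := fun {a} ha => ⟨inv_mem ha.1, fun x => by
        conv_lhs => rw [← ha.2 x]
        exact h.inv ha.1 x⟩ }
  exact (k.gen o i (T := T) hW (fun w m n => ⟨m, (e w m n).1⟩) ⟨(k.two i).1, t.1⟩
    (fun s hs => ⟨k.ur hs, t.2 s hs⟩) hg).2 x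

end Vale.Agent.P014Y.F.Rc
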